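import Crest.Agent.Lib.CWComb.Defs

/-! The one-chain of an edge path in a Cayley graph; injectivity of the second boundary map. -/

set_option autoImplicit false

namespace Crest.Agent.Lib.CWComb

variable {S G : Type*} [Group G]

/-- the integral one-chain of the edge path reading `w` from the vertex `g` -/
noncomputable def pathChain (π : S → G) (g : G) (w : FreeGroup S) : (G × S) →₀ ℤ :=
  Multiplicative.toAdd (hol π (fun g s => Multiplicative.ofAdd (Finsupp.single (g, s) (1 : ℤ))) g w)

@[simp] theorem pathChain_of (π : S → G) (g : G) (s : S) :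
    pathChain π g (FreeGroup.of s) = Finsupp.single (g, s) 1 := by simp [pathChain]

@[simp] theorem pathChain_one (π : S → G) (g : G) : pathChain π g 1 = 0 := by simp [pathChain]

theorem pathChain_mul (π : S → G) (g : G) (w w' : FreeGroup S) :
    pathChain π g (w * w') = pathChain π g w + pathChain π (g * FreeGroup.lift π w) w' := by
  simp [pathChain, hol_mul]

theorem pathChain_inv (π : S → G) (g : G) (w : FreeGroup S) :
    pathChain π g w⁻¹ = -pathChain π (g * (FreeGroup.lift π w)⁻¹) w := by
  simp [pathChain, hol_inv]

/-- abelian holonomy is the pairing of a cochain with the path chain -/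
theorem toAdd_hol {A : Type*} [AddCommGroup A] (π : S → G) (n : G → S → Multiplicative A) (g : G)
    (w : FreeGroup S) :
    Multiplicative.toAdd (hol π n g w) =
      Finsupp.linearCombination ℤ (fun p : G × S => Multiplicative.toAdd (n p.1 p.2))
        (pathChain π g w) := by
  induction w using FreeGroup.induction_on generalizing g with
  | C1 => simp
  | of s => simp
  | inv_of s ih => rw [hol_inv, pathChain_inv, map_neg, ← ih, toAdd_inv]
  | mul u v ihu ihv => rw [hol_mul, pathChain_mul, map_add, ← ihu, ← ihv, toAdd_mul]

/-- the second boundary map is injective, even modulo any integer `m` (`m = 0`: injective) -/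
theorem IsAsphPres.dvd_of_dvd_boundary {S R G : Type} [Group G] {π : S → G}
    {rel : R → FreeGroup S} (h : IsAsphPres π rel) (m : ℤ) (c : (G × R) →₀ ℤ) (b : (G × S) →₀ ℤ)
    (hc : (c.sum fun z k => k • pathChain π z.1 (rel z.2)) = m • b) (z₀ : G × R) : m ∣ c z₀ := by
  classical
  obtain ⟨n, hn1, hn2⟩ := h.dual z₀
  let φ := Finsupp.linearCombination ℤ (fun p : G × S => Multiplicative.toAdd (n p.1 p.2))
  have h1 := congrArg φ hc
  rw [map_finsuppSum, map_smul, Finsupp.sum, Finset.sum_eq_single z₀] at h1
  · rw [map_smul, ← toAdd_hol, hn1] at h1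
    exact ⟨φ b, by simpa using h1⟩
  · intro z _ hz
    rw [map_smul, ← toAdd_hol, hn2 z hz]
    simp
  · intro hz
    rw [Finsupp.notMem_support_iff.1 hz]
    simp

theorem IsAsphPres.d2_injective {S R G : Type} [Group G] {π : S → G} {rel : R → FreeGroup S}
    (h : IsAsphPres π rel) (c : (G × R) →₀ ℤ)
    (hc : (c.sum fun z k => k • pathChain π z.1 (rel z.2)) = 0) : c = 0 := by
  ext z
  exact zero_dvd_iff.1 (h.dvd_of_dvd_boundary 0 c 0 (by simpa using hc) z)

end Crest.Agent.Lib.CWComb
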